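import Mathlib.MeasureTheory.Constructions.Polish.Basic
import Mathlib.Dynamics.Ergodic.MeasurePreserving
import Mathlib.MeasureTheory.Measure.Comap
import Mathlib.MeasureTheory.Measure.Typeclasses.Probability

/-!
# P189: cost and fixed price, for right actions and arbitrary countable graphings
-/

set_option autoImplicit false

open MeasureTheory
open scoped ENNReal

namespace Vale.Agent.P189W88

/-- A p.m.p. action of `Γ`, written on the right: `(x g) h = x (g h)`, and every `g` acts by a
measure-preserving Borel map (an automorphism, with inverse given by `g⁻¹`). -/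
structure Action (Γ : Type) [Group Γ] {X : Type} [MeasurableSpace X] (μ : Measure X) where
  act : X → Γ → X
  act_one : ∀ x, act x 1 = x
  act_mul : ∀ x g h, act (act x g) h = act x (g * h)
  preserving : ∀ g, MeasurePreserving (fun x => act x g) μ μ

variable {Γ : Type} [Group Γ] {X : Type} [MeasurableSpace X] {μ : Measure X}

/-- The orbit equivalence relation `{(x, x g)}`. -/
def Action.rel (α : Action Γ μ) : Set (X × X) := {p | ∃ g, p.2 = α.act p.1 g}

/-- The action is essentially free: each `g ≠ 1` fixes a null set of points. -/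
def Action.Free (α : Action Γ μ) : Prop := ∀ g, g ≠ 1 → μ {x | α.act x g = x} = 0

/-- A graphing of `R`: a countable family of measure-preserving Borel bijections
`φ i : A i → B i` between Borel subsets, with `(x, φ i x) ∈ R`. -/
structure Graphing (μ : Measure X) (R : Set (X × X)) where
  ι : Type
  countable : Countable ι
  A : ι → Set X
  B : ι → Set X
  borelA : ∀ i, MeasurableSet (A i)
  borelB : ∀ i, MeasurableSet (B i)
  φ : ∀ i, A i ≃ᵐ B i
  preserving : ∀ i, MeasurePreserving (φ i) (μ.comap Subtype.val) (μ.comap Subtype.val)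
  mem : ∀ i (x : A i), ((x : X), (φ i x : X)) ∈ R

variable {R : Set (X × X)}

/-- `y` is the image of `x` under one of the maps `φ i` or their inverses. -/
def Graphing.Step (Φ : Graphing μ R) (x y : X) : Prop :=
  ∃ i, (∃ a : Φ.A i, (a : X) = x ∧ (Φ.φ i a : X) = y) ∨
    ∃ b : Φ.B i, (b : X) = x ∧ ((Φ.φ i).symm b : X) = y

/-- `Φ` generates `R`: for almost every `x`, every `y` with `(x, y) ∈ R` is reached from `x` by a
finite chain of steps. -/
def Graphing.Generates (Φ : Graphing μ R) : Prop :=
  ∀ᵐ x ∂μ, ∀ y, (x, y) ∈ R → Relation.ReflTransGen Φ.Step x y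

/-- The cost of a graphing. -/
noncomputable def Graphing.cost (Φ : Graphing μ R) : ℝ≥0∞ := ∑' i, μ (Φ.A i)

/-- The cost of `R`: the infimum of the costs of the generating graphings. -/
noncomputable def Cost (μ : Measure X) (R : Set (X × X)) : ℝ≥0∞ :=
  ⨅ (Φ : Graphing μ R) (_ : Φ.Generates), Φ.cost

/-- The set of costs of the essentially free p.m.p. actions of `Γ` on standard probability
spaces. -/
def costs (Γ : Type) [Group Γ] : Set ℝ≥0∞ :=
  {c | ∃ (X : Type) (_ : MeasurableSpace X) (_ : StandardBorelSpace X) (μ : Measure X)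
    (_ : IsProbabilityMeasure μ) (α : Action Γ μ), α.Free ∧ Cost μ α.rel = c}

/-- `Γ` has fixed price: all its essentially free p.m.p. actions have the same cost. -/
def FixedPrice (Γ : Type) [Group Γ] : Prop := ∀ c ∈ costs Γ, ∀ d ∈ costs Γ, c = d

end Vale.Agent.P189W88
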