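import Vale.Agent.P189W88.Defs
import Vale.Agent.P189.H650.Fin

/-!
# P189W88: right actions and countable graphings versus left actions and sequences
-/

set_option autoImplicit false

open MeasureTheory Set
open scoped ENNReal

namespace Vale.Agent.P189W88

variable {X : Type} [MeasurableSpace X] {μ : Measure X}

/-- the empty partial isomorphism -/
def emptyPI (μ : Measure X) : P189.PartialIso X μ where
  toEquiv := PartialEquiv.ofSet ∅
  measurableSet_source := MeasurableSet.empty
  measurableSet_target := MeasurableSet.empty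
  measurable_forward := measurable_subtype_coe
  measurable_backward := measurable_subtype_coe
  preserves := fun s _ _ => by simp

open Classical in
/-- a Borel isomorphism between subsets as a partial bijection -/
noncomputable def toPE {A B : Set X} (φ : A ≃ᵐ B) : PartialEquiv X X where
  toFun x := if h : x ∈ A then φ ⟨x, h⟩ else x
  invFun y := if h : y ∈ B then φ.symm ⟨y, h⟩ else y
  source := A
  target := B
  map_source' x hx := by simp [hx]
  map_target' y hy := by simp [hy]
  left_inv' x hx := by simp [hx]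
  right_inv' y hy := by simp [hy]

theorem toPE_apply {A B : Set X} (φ : A ≃ᵐ B) (a : A) : toPE φ a = φ a := dif_pos a.2

theorem toPE_symm_apply {A B : Set X} (φ : A ≃ᵐ B) (b : B) : (toPE φ).symm b = φ.symm b :=
  dif_pos b.2

/-- a measure-preserving Borel isomorphism between Borel subsets as a partial isomorphism -/
noncomputable def toPI {A B : Set X} (hA : MeasurableSet A) (hB : MeasurableSet B) (φ : A ≃ᵐ B)
    (h : MeasurePreserving φ (μ.comap Subtype.val) (μ.comap Subtype.val)) :
    P189.PartialIso X μ where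
  toEquiv := toPE φ
  measurableSet_source := hA
  measurableSet_target := hB
  measurable_forward := by
    have : (fun x : A => toPE φ x) = fun x => (φ x : X) := funext (toPE_apply φ)
    exact this ▸ measurable_subtype_coe.comp φ.measurable
  measurable_backward := by
    have : (fun x : B => (toPE φ).symm x) = fun x => (φ.symm x : X) := funext (toPE_symm_apply φ)
    exact this ▸ measurable_subtype_coe.comp φ.symm.measurable
  preserves := fun s hs _ => by
    have h1 := h.measure_preimage_equiv (φ '' (Subtype.val ⁻¹' s))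
    rw [preimage_image_eq _ φ.injective, (MeasurableEmbedding.subtype_coe hA).comap_apply,
      (MeasurableEmbedding.subtype_coe hB).comap_apply, Subtype.image_preimage_coe,
      inter_eq_right.2 (show s ⊆ A from hs)] at h1
    rw [h1]
    congr 1
    ext y
    constructor
    · rintro ⟨x, hx, rfl⟩
      exact ⟨φ ⟨x, hs hx⟩, ⟨⟨x, hs hx⟩, hx, rfl⟩, (toPE_apply φ ⟨x, hs hx⟩).symm⟩
    · rintro ⟨_, ⟨a, ha, rfl⟩, rfl⟩
      exact ⟨a, ha, toPE_apply φ a⟩

/-- a partial isomorphism as a Borel isomorphism between subsets -/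
def ofPI (P : P189.PartialIso X μ) : P.toEquiv.source ≃ᵐ P.toEquiv.target where
  toEquiv := P.toEquiv.toEquiv
  measurable_toFun := P.measurable_forward.subtype_mk
  measurable_invFun := P.measurable_backward.subtype_mk

theorem ofPI_preserving (P : P189.PartialIso X μ) :
    MeasurePreserving (ofPI P) (μ.comap Subtype.val) (μ.comap Subtype.val) := by
  refine ⟨(ofPI P).measurable, Measure.ext fun t ht => ?_⟩
  have hA := MeasurableEmbedding.subtype_coe P.measurableSet_source
  have hB := MeasurableEmbedding.subtype_coe P.measurableSet_target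
  rw [Measure.map_apply (ofPI P).measurable ht, hA.comap_apply, hB.comap_apply,
    ← P.preserves _ (Subtype.coe_image_subset _ _)
      (hA.measurableSet_image.2 ((ofPI P).measurable ht))]
  congr 1
  ext y
  constructor
  · rintro ⟨_, ⟨a, ha, rfl⟩, rfl⟩
    exact ⟨ofPI P a, ha, rfl⟩
  · rintro ⟨b, hb, rfl⟩
    refine ⟨_, ⟨(ofPI P).symm b, ?_, rfl⟩, ?_⟩
    · simpa using hb
    · exact congrArg Subtype.val ((ofPI P).apply_symm_apply b)

theorem cost_eq {Γ : Type} [Group Γ] [MulAction Γ X] {R : Set (X × X)}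
    (hR : ∀ x y, (x, y) ∈ R ↔ y ∈ MulAction.orbit Γ x) : Cost μ R = P189.actionCost Γ X μ := by
  apply le_antisymm
  · refine le_iInf₂ fun Ψ hΨ => ?_
    let Φ : Graphing μ R :=
      { ι := ℕ
        countable := inferInstance
        A := fun i => (Ψ.map i).toEquiv.source
        B := fun i => (Ψ.map i).toEquiv.target
        borelA := fun i => (Ψ.map i).measurableSet_source
        borelB := fun i => (Ψ.map i).measurableSet_target
        φ := fun i => ofPI (Ψ.map i)
        preserving := fun i => ofPI_preserving _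
        mem := fun i x => (hR _ _).2 (Ψ.mem_orbit i x x.2) }
    refine iInf₂_le_of_le Φ ?_ le_rfl
    filter_upwards [hΨ] with x hx y hy
    refine Relation.ReflTransGen.mono ?_ _ _ (hx y ((hR _ _).1 hy))
    rintro a b ⟨i, ⟨h1, h2⟩ | ⟨h1, h2⟩⟩
    · exact ⟨i, Or.inl ⟨⟨a, h1⟩, rfl, h2⟩⟩
    · exact ⟨i, Or.inr ⟨⟨a, h1⟩, rfl, h2⟩⟩
  · refine le_iInf₂ fun Φ hΦ => ?_
    haveI := Φ.countable
    obtain ⟨f, hf⟩ := Countable.exists_injective_nat Φ.ι
    let P : Φ.ι → P189.PartialIso X μ := fun i =>
      toPI (Φ.borelA i) (Φ.borelB i) (Φ.φ i) (Φ.preserving i)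
    let Q : ℕ → P189.PartialIso X μ := Function.extend f P fun _ => emptyPI μ
    have hQ : ∀ i, Q (f i) = P i := fun i => hf.extend_apply _ _ _
    have hQ' : ∀ n, (¬ ∃ i, f i = n) → Q n = emptyPI μ := fun n hn =>
      Function.extend_apply' _ _ _ hn
    let Ψ : P189.Graphing Γ X μ :=
      { map := Q
        mem_orbit := fun n x hx => by
          by_cases hn : ∃ i, f i = n
          · obtain ⟨i, rfl⟩ := hn
            rw [hQ] at hx ⊢
            refine (hR _ _).1 ?_
            have := Φ.mem i ⟨x, hx⟩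
            rwa [← toPE_apply] at this
          · rw [hQ' n hn] at hx
            exact hx.elim }
    refine iInf₂_le_of_le Ψ ?_ (le_of_eq ?_)
    · filter_upwards [hΦ] with x hx y hy
      refine Relation.ReflTransGen.mono ?_ _ _ (hx y ((hR _ _).2 hy))
      rintro a b ⟨i, ⟨u, rfl, rfl⟩ | ⟨u, rfl, rfl⟩⟩
      · refine ⟨f i, Or.inl ?_⟩
        change u.1 ∈ (Q (f i)).toEquiv.source ∧ (Q (f i)).toEquiv u = _
        rw [hQ]
        exact ⟨u.2, toPE_apply _ u⟩
      · refine ⟨f i, Or.inr ?_⟩
        change u.1 ∈ (Q (f i)).toEquiv.target ∧ (Q (f i)).toEquiv.symm u = _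
        rw [hQ]
        exact ⟨u.2, toPE_symm_apply _ u⟩
    · change ∑' n, μ (Q n).toEquiv.source = ∑' i, μ (Φ.A i)
      rw [← hf.tsum_eq (f := fun n => μ (Q n).toEquiv.source)]
      · exact tsum_congr fun i => by rw [hQ]; rfl
      · intro n hn
        by_contra h
        apply hn
        change μ (Q n).toEquiv.source = 0
        rw [hQ' n h]
        exact measure_empty

theorem mem_costs {Γ : Type} [Group Γ] {c : ℝ≥0∞} : c ∈ costs Γ ↔ P189.Attains Γ c := by
  constructor
  · rintro ⟨X, _, hX, μ, hμ, α, hf, hc⟩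
    letI : MulAction Γ X :=
      { smul := fun g x => α.act x g⁻¹
        one_smul := fun x => by
          change α.act x (1 : Γ)⁻¹ = x
          rw [inv_one, α.act_one]
        mul_smul := fun g h x => by
          change α.act x (g * h)⁻¹ = α.act (α.act x h⁻¹) g⁻¹
          rw [α.act_mul, mul_inv_rev] }
    refine ⟨X, inferInstance, hX, μ, hμ, inferInstance, ⟨fun g => (α.preserving g⁻¹).measurable⟩,
      ⟨fun g s hs => (α.preserving g⁻¹).measure_preimage hs.nullMeasurableSet⟩,
      fun g hg => hf g⁻¹ (inv_ne_one.2 hg), ?_⟩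
    rw [← hc]
    refine (cost_eq fun x y => ⟨?_, ?_⟩).symm
    · rintro ⟨g, hg⟩
      refine ⟨g⁻¹, ?_⟩
      change α.act x g⁻¹⁻¹ = y
      rw [inv_inv]
      exact hg.symm
    · rintro ⟨g, hg⟩
      exact ⟨g⁻¹, hg.symm⟩
  · rintro ⟨X, _, hX, μ, hμ, _, _, _, hf, hc⟩
    let α : Action Γ μ :=
      { act := fun x g => g⁻¹ • x
        act_one := fun x => by simp
        act_mul := fun x g h => by simp [mul_smul]
        preserving := fun g => measurePreserving_smul g⁻¹ μ }
    refine ⟨X, inferInstance, hX, μ, hμ, α, fun g hg => hf g⁻¹ (inv_ne_one.2 hg), ?_⟩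
    rw [← hc]
    refine cost_eq fun x y => ⟨?_, ?_⟩
    · rintro ⟨g, hg⟩
      exact ⟨g⁻¹, hg.symm⟩
    · rintro ⟨g, hg⟩
      refine ⟨g⁻¹, ?_⟩
      change y = g⁻¹⁻¹ • x
      rw [inv_inv]
      exact hg.symm

theorem main :
    (¬ ∀ (Γ : Type) [Group Γ] [Countable Γ], FixedPrice Γ) ∧
    (∀ K : ℕ, ∃ (Γ : Type) (_ : Group Γ), Countable Γ ∧ Group.IsFinitelyPresented Γ ∧
      Set.Icc (1 : ℝ≥0∞) K ⊆ costs Γ) ∧
    ∃ (Γ : Type) (_ : Group Γ), Countable Γ ∧ costs Γ = Set.Ici 1 := by
  obtain ⟨G, _, -, -, hG, -, h⟩ := P189.R.retract_nat PUnit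
  refine ⟨fun hall => ?_, fun K => ?_, G, inferInstance, hG, ?_⟩
  · exact ENNReal.one_ne_top (hall G 1 (mem_costs.2 ((h 1).2 le_rfl)) ⊤ (mem_costs.2 ((h ⊤).2 le_top)))
  · obtain ⟨G, _, -, -, hG, -, -, hp, h⟩ := P189.R.retract_fin PUnit K
    exact ⟨G, inferInstance, hG, hp inferInstance, fun c hc => mem_costs.2 (h c hc.1 hc.2)⟩
  · ext c
    exact mem_costs.trans (h c)

end Vale.Agent.P189W88
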